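import Vale.Agent.P057FC.Defs

/-!
The root system has a model.
-/

set_option linter.all false

open Matrix Finset
open Vale.Agent.P267.H775 Vale.Agent.P057G Vale.Agent.P057PC Vale.Agent.P057TP Vale.Agent.P057MA
open Vale.Agent.P057SG Vale.Agent.P057FC

namespace Vale.Agent.P057MD

noncomputable section

variable {T : Tow} {n p : ℕ} {R : Type} [Fintype R] [DecidableEq R]

/-- the model of the root system -/
def rootM (lam γ : ℝ) (D : Fz T n p R → ℤ) : Mdd T n p R (Lv T n p R) where
  O := Uv n p R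
  π := id
  jo := some
  D := fun l : Lr T n p R => if h : Liv l then 0 else D ⟨l, h⟩
  e _ := 1
  g := sv lam γ
  lab := id

theorem glo_root (lam γ : ℝ) (D : Fz T n p R → ℤ) (z : Lv T n p R → ℝ) :
    glo (rootM lam γ D).e (z ∘ (rootM lam γ D).lab) (rootM lam γ D).D = gl2 z D := by
  funext l
  by_cases h : Liv (l : Lr T n p R)
  · refine (dif_pos h).trans (Eq.trans ?_ (dif_pos h).symm)
    simp only [rootM, Nat.cast_one, prod_const_one, one_mul]
    rfl
  · refine (dif_neg h).trans (Eq.trans ?_ (dif_neg h).symm)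
    exact congrArg Int.cast (dif_neg h)

theorem ex_root (lam γ : ℝ) (D : Fz T n p R → ℤ) : (rootM lam γ D).ex = ∅ :=
  filter_eq_empty_iff.2 fun j _ h => h ⟨j, rfl⟩

omit [Fintype R] [DecidableEq R] in
theorem none_lfo {O : Type} {π : O → Uv n p R} {l : Lo T π} : none ∈ lfo l ↔ none ∈ l.fc := by
  rw [lfo, mem_biUnion]
  refine ⟨fun ⟨x, h1, h2⟩ => ?_, fun h => ⟨none, h, mem_singleton_self _⟩⟩
  rcases x with _ | w | u
  · exact h1
  · simp [lco] at h2
  · simp [lco] at h2

theorem mroot : MROOT := by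
  intro T n p R _ dR Z lam γ U D h1 h2 h3 h4
  have hU : 1 ≤ Real.exp U := h1.trans h2
  refine ⟨rootM lam γ D, ⟨fun o u h => Option.some.inj h, fun u => ⟨u, rfl,
    fun _ h => Option.some.inj h⟩, Function.injective_id, fun _ => rfl, fun _ => rfl,
    fun _ _ => rfl, fun z l => ?_, fun z => ?_, rfl, rfl, fun u => ?_, fun u => ?_, fun u => ?_,
    ?_, ?_, ?_, ?_, ?_, ?_⟩, ?_⟩
  · rw [glo_root]
    simp only [rootM, Nat.cast_one, prod_const_one, one_mul]
    rfl
  · rw [glo_root]
    funext l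
    refine sum_congr rfl fun k _ => ?_
    obtain rfl : dR = fun a b => Classical.propDecidable (a = b) := Subsingleton.elim _ _
    exact @if_congr _ _ _ (_) (_) _ _ _ _ Iff.rfl rfl rfl
  · simp [rootM]
  · simp only [Nat.cast_zero, mul_zero, zero_add, one_mul]
    rcases u with _ | w | u
    exacts [⟨h3, h4⟩, ⟨h1, h2⟩, ⟨le_rfl, hU⟩]
  · simp only [rootM, Nat.cast_one, one_pow]
    rcases u with _ | w | u
    exacts [h3, h1, le_rfl]
  · exact Nat.le_add_right _ _
  · simp [ex_root]
  · simp [ex_root]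
  · simp [ex_root]
  · simp [ex_root, cx_empty]
  · rw [ex_root]
    exact fun z hz => absurd (Subsingleton.elim _ _) hz
  · ext j
    simp only [Mdd.cw, fce, mem_filter, mem_univ, true_and]
    refine ⟨fun ⟨l, e, h⟩ v hv => mem_erase.2 ⟨fun c => h (none_lfo.1 ?_), mem_univ _⟩,
      fun h => ⟨j, rfl, fun c => (mem_erase.1 (h (none_lfo.2 c))).1 rfl⟩⟩
    subst e c
    exact hv

end

end Vale.Agent.P057MD
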