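import Vale.Agent.P057MD.Step

/-!
A refinement step keeps the model: the bounds.
-/

set_option linter.all false

open Matrix Finset
open Vale.Agent.P267.H775 Vale.Agent.P057G Vale.Agent.P057PC Vale.Agent.P057TP Vale.Agent.P057MA
open Vale.Agent.P057SG Vale.Agent.P057FC
open Vale.Agent.P057IV (Stp Good mp Lk bv rf)

namespace Vale.Agent.P057MD

noncomputable section

open Classical

theorem mstep : MSTEP := by
  intro s₀ N T n p R _ _ Z γ U Λ ι _ _ S φ k M s o hT hZ hS hC hΛ hU hs _ h
  have hb : s.b ≠ none := (mem_erase.1 hs.mem).1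
  have hf := h.fc
  have hd := des_step (o := o) hb hf
  have l1 := hs.one_le hΛ
  have d1 : (1 : ℝ) ≤ s.d := by exact_mod_cast hs.d1
  have d2 := hs.d_le hΛ
  have eU : 1 ≤ Real.exp U := Real.one_le_exp hU
  have sat : Sat S.G M.ex := fun i j hi hj => by_contra fun c => by
    obtain ⟨l, rfl⟩ : j ∈ Set.range M.lab := by simpa [Mdd.ex] using hj
    exact ((h.xl i hi).1 l).ne' (hS.orth _ _ c).2
  have lvb : ∀ i, S.lv i ≤ n + 2 + k := fun i => by
    by_cases c : i ∈ M.ex
    · exact (h.xl i c).2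
    · obtain ⟨l, rfl⟩ : i ∈ Set.range M.lab := by simpa [Mdd.ex] using c
      rw [h.lv]
      exact l.1.2.1.le.trans (Nat.le_add_right _ _)
  refine ⟨stepM S M s o, ⟨jp_step h.jp, fun u => ?_, inj_step hb hf h.inj, fc_step hb hf,
    fun l => ?_, G_step hb hf h.G, cen_step hb hf hT hZ h.jp h.cen, fun z => ?_, ?_, ?_,
    fun u => ?_, fun u => ?_, fun u => ?_, ?_, fun j hj => ?_, fun j hj => ?_, ?_, ?_,
    sep_iff.1 (hd.sep hS hs hΛ (sep_iff.2 h.xs))⟩, fun i => ?_, fun x => ?_, fun a => ?_⟩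
  · obtain ⟨x, h1, h2⟩ := h.ju u
    refine ⟨Sum.inl x, h1, fun y hy => ?_⟩
    rcases y with y | v
    exacts [congrArg _ (h2 y hy), by cases hy]
  · obtain ⟨a, h1, h2⟩ := lv_step (o := o) hb hf l
    exact h1.trans ((h.lv a).trans (congrArg _ h2.symm))
  · exact (h.map _).trans (rmo_step hb hf z)
  · exact (congrArg₂ (· * ·) (if_neg fun c => hb (mem_singleton.1 c)) h.e0).trans (one_mul _)
  · exact (congrArg₂ (· * ·) (if_neg fun c => hb (mem_singleton.1 c)) h.g0).trans (one_mul _)
  · obtain ⟨h1, h2⟩ := h.eb (vc u)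
    have e : Real.exp (((k + 1 : ℕ) : ℝ) * U) = Real.exp U * Real.exp (k * U) := by
      rw [← Real.exp_add]; congr 1; push_cast; ring
    change 1 ≤ ne M s u ∧ (ne M s u : ℝ) ≤ _
    rw [e]
    unfold ne
    split_ifs
    · exact ⟨Nat.mul_pos hs.d1 h1, by
        push_cast; exact mul_le_mul (d2.trans hs.hi) h2 (by positivity) (by positivity)⟩
    · exact ⟨by rwa [one_mul], by
        push_cast; exact mul_le_mul eU h2 (by positivity) (by positivity)⟩
  · obtain ⟨h1, h2⟩ := h.gb (vc u)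
    have e : Real.exp ((2 * ((k + 1 : ℕ) : ℝ) + 1) * U) =
        Real.exp U ^ 2 * Real.exp ((2 * k + 1) * U) := by
      rw [sq, ← Real.exp_add, ← Real.exp_add]; congr 1; push_cast; ring
    change 1 ≤ ng' M s u ∧ ng' M s u ≤ _
    rw [e]
    unfold ng'
    split_ifs
    · exact ⟨one_le_mul_of_one_le_of_one_le (one_le_pow₀ l1) h1, mul_le_mul
        (pow_le_pow_left₀ (by positivity) hs.hi 2) h2 (by positivity) (by positivity)⟩
    · exact ⟨by rwa [one_mul], mul_le_mul (one_le_pow₀ eU) h2 (by positivity) (by positivity)⟩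
  · have h1 := h.eg (vc u)
    change (ne M s u : ℝ) ^ 2 ≤ ng' M s u
    unfold ne ng'
    split_ifs
    · push_cast
      rw [mul_pow]
      exact mul_le_mul (pow_le_pow_left₀ (by positivity) d2 2) h1 (by positivity) (by positivity)
    · simpa using h1
  · have h1 := h.cO
    have h2 : Fintype.card (Qv n p s.b) ≤ n * p :=
      (Fintype.card_subtype_le _).trans_eq (by simp)
    change Fintype.card (M.O ⊕ Qv n p s.b) ≤ _
    rw [Fintype.card_sum, add_mul, one_mul]
    omega
  · rcases j with (i | x) | a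
    · exact h.xf i ((hd.old i).1 hj)
    · exact fun c => (mem_erase.1 (hs.fB x c)).1 rfl
    · exact fun c => h.xf a.1 ((hd.lnk a).1 hj) (mem_of_mem_erase c)
  · have key : (∀ l, S.lv (M.lab l) < (rf S s o).lv j) ∧ (rf S s o).lv j ≤ n + 2 + (k + 1) := by
      rcases j with (i | x) | a
      · exact (h.xl i ((hd.old i).1 hj)).imp id fun c => c.trans (Nat.le_succ _)
      · exact ⟨fun l => Nat.lt_succ_of_le (le_sup (f := S.lv) (mem_univ _)),
          Nat.succ_le_succ (Finset.sup_le fun i _ => lvb i)⟩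
      · exact (h.xl a.1 ((hd.lnk a).1 hj)).imp id fun c => c.trans (Nat.le_succ _)
    refine ⟨fun l => ?_, key.2⟩
    obtain ⟨a, h1, -⟩ := lv_step (o := o) hb hf l
    exact h1.trans_lt (key.1 a)
  · have h1 : (((stepM S M s o).ex.card : ℕ) : ℝ) ≤ 2 * M.ex.card + Fintype.card s.X := by
      exact_mod_cast hd.card
    have h2 := h.xc
    have h3 := hs.card
    rw [pow_succ]
    linarith
  · have h0 := zero_le_one.trans (one_le_cx hS.pd M.ex)
    have h1 : s.lam ^ M.ex.card ≤ Real.exp ((2 ^ k - 1) * U * U) :=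
      (pow_le_pow_left₀ (by positivity) hs.hi _).trans (by
        rw [← Real.exp_nat_mul]
        exact Real.exp_le_exp.2 (mul_le_mul_of_nonneg_right h.xc hU))
    refine (hd.cx hS hs hΛ sat).trans ((mul_le_mul (mul_le_mul_of_nonneg_right
      (mul_le_mul h1 h.xx h0 (by positivity)) (by positivity)) h.xx h0 (by positivity)).trans ?_)
    rw [← Real.exp_add, ← Real.exp_add, ← Real.exp_add, pow_succ]
    refine Real.exp_le_exp.2 ?_
    have h2 : (1 : ℝ) ≤ 2 ^ k := one_le_pow₀ one_le_two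
    push_cast
    nlinarith [mul_nonneg hU hU, mul_nonneg (sub_nonneg.2 h2) hU,
      mul_nonneg (sub_nonneg.2 h2) (mul_nonneg hU hU)]
  · simp only [Mdd.cw, mem_filter, mem_univ, true_and]
    exact old_iff hb hf Not i
  · simp only [Mdd.cw, mem_filter, mem_univ, true_and]
    exact fun ⟨l, c, _⟩ => new_ne hb hf l x c
  · simp only [Mdd.cw, mem_filter, mem_univ, true_and]
    exact lnk_iff hb hf Not a

end

end Vale.Agent.P057MD
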