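import Vale.Agent.P057IV.Step
import Vale.Agent.P057MA.Cx
import Vale.Agent.P057PC.Ex

/-!
The extra coordinates after a refinement step.
-/

set_option linter.all false

open Matrix Finset
open Vale.Agent.P267.H775 Vale.Agent.P057G Vale.Agent.P057MA Vale.Agent.P057IV
open Vale.Agent.P057PC (qq_submatrix)

namespace Vale.Agent.P057MD

noncomputable section

variable {V ι : Type} [Fintype V] [DecidableEq V] [Fintype ι] [DecidableEq ι]

/-- integer vectors on `q` are not short -/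
def Sep (G : Matrix ι ι ℝ) (q : Finset ι) : Prop :=
  ∀ z : ι → ℤ, (∀ i ∉ q, z i = 0) → z ≠ 0 → 1 ≤ qq G (toR z)

theorem qq_blk_eq (G : Matrix ι ι ℝ) {q : Finset ι} {z : ι → ℤ} (hz : ∀ i ∉ q, z i = 0) :
    qq G (toR z) = qq (blk G q) (toR fun i : q => z i) := by
  refine Eq.trans (congrArg _ (funext fun i => ?_)) (qq_msk G q (toR z))
  by_cases h : i ∈ q
  · exact (msk_pos _ h).symm
  · rw [msk_neg _ h, toR_apply, hz i h, Int.cast_zero]

theorem sep_iff {G : Matrix ι ι ℝ} {q : Finset ι} :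
    Sep G q ↔ ∀ z : q → ℤ, z ≠ 0 → 1 ≤ qq (blk G q) (toR z) := by
  refine ⟨fun h z hz => ?_, fun h z h1 h2 => ?_⟩
  · have h1 : ∀ i ∉ q, put q z 0 i = 0 := fun i hi => put_neg _ _ hi
    have := h _ h1 fun e => hz (funext fun i => (put_coe z 0 i).symm.trans (congrFun e i))
    rw [qq_blk_eq G h1] at this
    simpa only [put_coe] using this
  · rw [qq_blk_eq G h1]
    refine h _ fun e => h2 (funext fun i => ?_)
    by_cases k : i ∈ q
    exacts [congrFun e ⟨i, k⟩, h1 i k]

variable {S : MS V ι} {s : Stp V ι} {o : ι → ℤ} {B : Finset V} {Λ P R : ℝ} {q : Finset ι}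
  {q' : Finset ((ι ⊕ s.X) ⊕ Lk S s.b)}

/-- `q'` consists of the descendants of `q` and of the new coordinates -/
structure Des (S : MS V ι) (s : Stp V ι) (q : Finset ι) (q' : Finset ((ι ⊕ s.X) ⊕ Lk S s.b)) :
    Prop where
  old : ∀ i, Sum.inl (Sum.inl i) ∈ q' ↔ i ∈ q
  new : ∀ x, Sum.inl (Sum.inr x) ∈ q'
  lnk : ∀ l, Sum.inr l ∈ q' ↔ l.1 ∈ q

theorem Des.eq (h : Des S s q q') : q' = (q.image (Sum.inl ∘ Sum.inl) ∪
    univ.image (Sum.inl ∘ Sum.inr)) ∪ (univ.filter fun l : Lk S s.b => l.1 ∈ q).image Sum.inr := by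
  ext a
  rcases a with (i | x) | l <;> simp [h.old, h.new, h.lnk]

theorem card_lk (q : Finset ι) (b : V) : (univ.filter fun l : Lk S b => l.1 ∈ q).card ≤ q.card :=
  card_le_card_of_injOn Subtype.val (fun _ h => (mem_filter.1 h).2) Subtype.val_injective.injOn

theorem Des.card (h : Des S s q q') : q'.card ≤ 2 * q.card + Fintype.card s.X := by
  rw [h.eq]
  have h1 := card_lk (S := S) q s.b
  refine (card_union_le _ _).trans ((add_le_add ((card_union_le _ _).trans
    (add_le_add card_image_le card_image_le)) card_image_le).trans ?_)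
  rw [card_univ]
  omega

theorem qq_dil_ge (h : S.Ok) {lam : ℝ} (hl : 1 ≤ lam) (b : V) (x : ι → ℝ) :
    qq S.G x ≤ qq (dil S {b} lam).G x := by
  have := qq_scale_le h.pd.posSemidef (a := 1) (b := fun i => lam ^ (S.fc i ∩ {b}).card)
    (fun _ _ _ => rfl) (fun i j e => by rw [(h.orth i j e).1])
    (fun i => (one_pow 2).trans_le (one_le_pow₀ (one_le_pow₀ hl))) x
  rw [one_mul] at this
  exact this.trans_eq (P057T1.qq_gsc _ _ _).symm

theorem qq_dil_le (h : S.Ok) {lam : ℝ} (hl : 1 ≤ lam) (b : V) (x : ι → ℝ) :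
    qq (dil S {b} lam).G x ≤ qq (lam ^ 2 • S.G) x := by
  have := qq_scale_le h.pd.posSemidef (a := fun i => lam ^ (S.fc i ∩ {b}).card) (b := fun _ => lam)
    (fun i j e => by rw [(h.orth i j e).1]) (fun _ _ _ => rfl)
    (fun i => pow_le_pow_left₀ (by positivity) ((pow_le_pow_right₀ hl
      ((card_le_card inter_subset_right).trans_eq (card_singleton b))).trans_eq (pow_one _)) 2) x
  rw [qq_smul_mat, ← qq_smul]
  exact (P057T1.qq_gsc _ _ _).trans_le this

theorem Des.sep (h : Des S s q q') (hS : S.Ok) (hs : Good S s B Λ P R) (hΛ : 1 ≤ Λ)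
    (hq : Sep S.G q) : Sep (rf S s o).G q' := fun z h1 h2 => by
  classical
  have e : qq (rf S s o).G (toR z) = qq (dil S {s.b} s.lam).G (toR (z ∘ Sum.inl ∘ Sum.inl)) +
      qq s.G (toR (z ∘ Sum.inl ∘ Sum.inr)) +
      qq (S.G.submatrix Subtype.val Subtype.val) (toR fun l : Lk S s.b => z (Sum.inr l)) :=
    (qq_fromBlocks _ _ _).trans (congrArg (· + _) (qq_fromBlocks _ _ _))
  have p1 := qq_nonneg (ok_dil hS {s.b} (hs.one_le hΛ)).pd.posSemidef
    (toR (z ∘ Sum.inl ∘ Sum.inl))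
  have p2 := qq_nonneg hs.top.pd.posSemidef (toR (z ∘ Sum.inl ∘ Sum.inr))
  have p3 := qq_nonneg (hS.pd.submatrix (e := (Subtype.val : Lk S s.b → ι))
    Subtype.val_injective).posSemidef (toR fun l : Lk S s.b => z (Sum.inr l))
  obtain ⟨a, ha⟩ := Function.ne_iff.1 h2
  rw [e]
  rcases a with (i | x) | l
  · have := (hq (z ∘ Sum.inl ∘ Sum.inl) (fun j hj => h1 _ (mt (h.old j).1 hj))
      fun c => ha (congrFun c i)).trans (qq_dil_ge hS (hs.one_le hΛ) s.b _)
    linarith
  · have := hs.sep (z ∘ Sum.inl ∘ Sum.inr) fun c => ha (congrFun c x)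
    linarith
  · let u : ι → ℤ := Function.extend Subtype.val (fun l : Lk S s.b => z (Sum.inr l)) 0
    have hu : ∀ l : Lk S s.b, u l = z (Sum.inr l) := Subtype.val_injective.extend_apply _ _
    have hu' : ∀ i, u i ≠ 0 → ∃ l : Lk S s.b, l.1 = i := fun i hi => by_contra fun c =>
      hi (Function.extend_apply' _ _ _ c)
    have h3 := hq u (fun j hj => by_contra fun c => by
      obtain ⟨k, rfl⟩ := hu' j c
      exact c ((hu k).trans (h1 _ (mt (h.lnk k).1 hj)))) fun c => ha ((hu l).symm.trans (congrFun c l))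
    rw [← qq_link (S := S) (b := s.b) fun i hi => hu' i fun c => hi (by simp [c])] at h3
    have e2 : (fun l : Lk S s.b => toR u l) = toR fun l : Lk S s.b => z (Sum.inr l) :=
      funext fun l => by simp only [toR_apply, hu]
    rw [e2] at h3
    linarith

theorem cx_univ (G : Matrix ι ι ℝ) (hG : G.PosDef) : cx G univ = th G⁻¹ 0 := by
  have e : blk G univ = G.submatrix (Equiv.subtypeUnivEquiv mem_univ)
    (Equiv.subtypeUnivEquiv mem_univ) := rfl
  rw [cx, e, inv_submatrix_equiv, th, th]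
  refine (Equiv.tsum_eq (Equiv.arrowCongr (Equiv.subtypeUnivEquiv mem_univ) (Equiv.refl ℤ)).symm
    _).symm.trans (tsum_congr fun z => ?_)
  simp only [gs, sub_zero]
  rw [← qq_submatrix G⁻¹ (Equiv.subtypeUnivEquiv mem_univ)]
  rfl

theorem Des.cx (h : Des S s q q') (hS : S.Ok) (hs : Good S s B Λ P R) (hΛ : 1 ≤ Λ)
    (hq : Sat S.G q) : cx (rf S s o).G q' ≤ s.lam ^ q.card * cx S.G q * P * cx S.G q := by
  have hl := hs.one_le hΛ
  have hd := ok_dil hS {s.b} hl
  have hr := hs.ok_rf hΛ hS o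
  have q1 : Sat (dil S {s.b} s.lam).G q := fun i j hi hj => by
    simp [dil, MS.gram, P057T1.gsc, hq i j hi hj]
  have s1 : Sat (rf S s o).G (q.image (Sum.inl ∘ Sum.inl)) := fun a b ha hb => by
    obtain ⟨i, hi, rfl⟩ := mem_image.1 ha
    rcases b with (j | x) | l
    exacts [q1 i j hi fun c => hb (mem_image_of_mem _ c), rfl, rfl]
  have s2 : Sat (rf S s o).G (univ.image (Sum.inl ∘ Sum.inr)) := fun a b ha hb => by
    obtain ⟨i, hi, rfl⟩ := mem_image.1 ha
    rcases b with (j | x) | l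
    exacts [rfl, absurd (mem_image_of_mem _ (mem_univ x)) hb, rfl]
  have q3 : Sat (S.G.submatrix (Subtype.val : Lk S s.b → ι) Subtype.val)
      (univ.filter fun l : Lk S s.b => l.1 ∈ q) := fun a b ha hb =>
    hq _ _ (mem_filter.1 ha).2 fun c => hb (mem_filter.2 ⟨mem_univ _, c⟩)
  have s3 : Sat (rf S s o).G ((univ.filter fun l : Lk S s.b => l.1 ∈ q).image Sum.inr) :=
    fun a b ha hb => by
      obtain ⟨i, hi, rfl⟩ := mem_image.1 ha
      rcases b with j | l
      exacts [rfl, q3 i l hi fun c => hb (mem_image_of_mem _ c)]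
  have s4 : Sat S.G ((univ.filter fun l : Lk S s.b => l.1 ∈ q).image Subtype.val) :=
    fun a b ha hb => by
      obtain ⟨i, hi, rfl⟩ := mem_image.1 ha
      by_contra c
      have e := (hS.orth _ _ c).1
      refine hb (mem_image.2 ⟨⟨b, e ▸ i.2⟩, mem_filter.2 ⟨mem_univ _, by_contra fun d => ?_⟩, rfl⟩)
      exact c (hq _ _ (mem_filter.1 hi).2 d)
  let X : MS V s.X := ⟨s.fc, fun _ => 0, s.G, fun _ _ => 0⟩
  have hX : X.Ok := ⟨hs.top.pd, fun i j e => ⟨hs.top.ort i j e, rfl⟩, fun _ _ _ _ => rfl,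
    fun _ _ _ => aff_const _ _⟩
  let L : MS V (Lk S s.b) := ⟨fun l => S.fc l, fun l => S.lv l,
    S.G.submatrix Subtype.val Subtype.val, fun _ _ => 0⟩
  have hL : L.Ok := ⟨hS.pd.submatrix Subtype.val_injective, fun i j e => hS.orth _ _ e,
    fun _ _ _ _ => rfl, fun _ _ _ => aff_const _ _⟩
  have c1 : P057MA.cx (rf S s o).G (q.image (Sum.inl ∘ Sum.inl)) ≤
      s.lam ^ q.card * P057MA.cx S.G q :=
    (cx_image hd hr (Sum.inl_injective.comp Sum.inl_injective) q1 s1 fun _ _ _ _ => rfl).trans_le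
      ((cx_le_of_le hd.pd (hS.pd.smul (by positivity))
        (qq_blk_le (qq_dil_le hS hl s.b) q)).trans (cx_smul hS.pd hl q))
  have c2 : P057MA.cx (rf S s o).G (univ.image (Sum.inl ∘ Sum.inr)) ≤ P :=
    (cx_image hX hr (Sum.inl_injective.comp Sum.inr_injective)
      (fun _ j _ hj => absurd (mem_univ j) hj) s2 fun _ _ _ _ => rfl).trans_le
      ((cx_univ _ hs.top.pd).trans_le hs.cx)
  have c3 : P057MA.cx (rf S s o).G ((univ.filter fun l : Lk S s.b => l.1 ∈ q).image Sum.inr) ≤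
      P057MA.cx S.G q :=
    (cx_image hL hr Sum.inr_injective q3 s3 fun _ _ _ _ => rfl).trans_le
      ((cx_image hL hS Subtype.val_injective q3 s4 fun _ _ _ _ => rfl).symm.trans_le
        (cx_mono hS hq s4 fun a ha => by
          obtain ⟨i, hi, rfl⟩ := mem_image.1 ha
          exact (mem_filter.1 hi).2))
  have n : ∀ r, 0 ≤ P057MA.cx (rf S s o).G r := fun r => zero_le_one.trans (one_le_cx hr.pd r)
  rw [h.eq]
  exact (cx_union hr (sat_union s1 s2) s3).trans (mul_le_mul ((cx_union hr s1 s2).trans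
    (mul_le_mul c1 c2 (n _) ((n _).trans c1))) c3 (n _)
    (mul_nonneg ((n _).trans c1) ((n _).trans c2)))

end

end Vale.Agent.P057MD
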