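import Vale.Agent.P057MD.Vtx
import Vale.Agent.P057MD.Ext
import Vale.Agent.P057RA.Root

/-!
A refinement step keeps the model.
-/

set_option linter.all false

open Matrix Finset
open Vale.Agent.P267.H775 Vale.Agent.P057G Vale.Agent.P057PC Vale.Agent.P057TP Vale.Agent.P057MA
open Vale.Agent.P057GH Vale.Agent.P057SG Vale.Agent.P057FC
open Vale.Agent.P057DP (pbo ok_pbo pr_pbo Gam_ne)
open Vale.Agent.P057IV (Stp Good mp Lk bv rf)

namespace Vale.Agent.P057MD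

noncomputable section

open Classical

variable {T : Tow} {n p : ℕ} {R ι : Type} [Fintype ι] [DecidableEq ι]
  (S : MS (Option (Fin n)) ι) (M : Mdd T n p R ι) (s : Stp (Option (Fin n)) ι) (o : ι → ℤ)

/-- the coordinates of the new live labels -/
def nlab (l : Lvo T (pN M.π s.b)) : (ι ⊕ s.X) ⊕ Lk S s.b :=
  if h : Nw l.1 ∧ s.b ∈ S.fc (M.lab ⟨lcl l.1, livo_lcl l.2⟩) ∧
      S.fc (M.lab ⟨lcl l.1, livo_lcl l.2⟩) ≠ {s.b} then Sum.inr ⟨_, h.2⟩
  else Sum.inl (Sum.inl (M.lab ⟨lcl l.1, livo_lcl l.2⟩))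

/-- the new frozen values -/
def nD (l : Lo T (pN M.π s.b)) : ℤ :=
  if h : Livo (lcl l) then (∏ u ∈ (lcl l).fc, (M.e u : ℤ)) * o (M.lab ⟨_, h⟩) else M.D (lcl l)

def ne (x : Vo n p (M.O ⊕ Qv n p s.b)) : ℕ := (if s.b ∈ lco x then s.d else 1) * M.e (vc x)

def ng' (x : Vo n p (M.O ⊕ Qv n p s.b)) : ℝ := (if s.b ∈ lco x then s.lam ^ 2 else 1) * M.g (vc x)

def njo : M.O ⊕ Qv n p s.b → Option (Uv n p R) := Sum.elim M.jo fun _ => none

/-- the model after the step -/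
def stepM : Mdd T n p R ((ι ⊕ s.X) ⊕ Lk S s.b) where
  O := M.O ⊕ Qv n p s.b
  π := pN M.π s.b
  jo := njo M s
  D := nD M s o
  e := ne M s
  g := ng' M s
  lab := nlab S M s

variable {S M s o}

theorem prod_ne (l : Lo T (pN M.π s.b)) : ∏ u ∈ l.fc, (ne M s u : ℝ) =
    (if s.b ∈ lfo l then (s.d : ℝ) else 1) * ∏ u ∈ (lcl l).fc, (M.e u : ℝ) := by
  rw [← prod_lcl]
  exact prod_congr rfl fun u _ => by unfold ne; split_ifs <;> simp

theorem prod_ng (l : Lo T (pN M.π s.b)) : ∏ u ∈ l.fc, ng' M s u =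
    (if s.b ∈ lfo l then s.lam ^ 2 else 1) * ∏ u ∈ (lcl l).fc, M.g u := prod_lcl l _ _

theorem livo_lj {l : Lo T M.π} : Livo (lj s.b l) ↔ Livo l := by rw [Livo, lfo_lj, Livo]

theorem nlab_lj {l : Lo T M.π} (h : Livo l) (h' : Livo (lj s.b l)) :
    nlab S M s ⟨lj s.b l, h'⟩ = Sum.inl (Sum.inl (M.lab ⟨l, h⟩)) := by
  rw [nlab, dif_neg fun c => not_nw l c.1]
  simp only [lcl_lj]

variable (hb : s.b ≠ none) (hf : ∀ l, S.fc (M.lab l) = lfo l.1)
include hb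

theorem livo_lq {l : Lo T M.π} (h : s.b ∈ lfo l) : Livo (lq s.b l) ↔ lfo l ≠ {s.b} := by
  rw [Livo, lfo_lq hb, nonempty_iff_ne_empty, Ne, Ne, erase_eq_empty_iff]
  exact not_congr (or_iff_right (ne_empty_of_mem h))

include hf

theorem nlab_lq {l : Lo T M.π} (h : s.b ∈ lfo l) (h' : Livo (lq s.b l)) :
    nlab S M s ⟨lq s.b l, h'⟩ = Sum.inr ⟨M.lab ⟨l, _, h⟩, (hf _).symm ▸ h,
      (hf _).symm ▸ (livo_lq hb h).1 h'⟩ := by
  rw [nlab, dif_pos ⟨nw_lq hb h, by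
    simp only [lcl_lq, hf]; exact ⟨h, (livo_lq hb h).1 h'⟩⟩]
  simp only [lcl_lq]

/-- the two kinds of live labels -/
theorem live_cases (l : Lvo T (pN M.π s.b)) :
    (∃ k : Lvo T M.π, l.1 = lj s.b k.1 ∧ nlab S M s l = Sum.inl (Sum.inl (M.lab k))) ∨
    ∃ (k : Lvo T M.π) (a : Lk S s.b), s.b ∈ lfo k.1 ∧ l.1 = lq s.b k.1 ∧ a.1 = M.lab k ∧
      nlab S M s l = Sum.inr a := by
  obtain ⟨l, hl⟩ := l
  rcases lab_cases l with ⟨k, rfl⟩ | ⟨k, h, rfl⟩
  · exact Or.inl ⟨⟨k, livo_lj.1 hl⟩, rfl, nlab_lj _ hl⟩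
  · exact Or.inr ⟨⟨k, _, h⟩, _, h, rfl, rfl, nlab_lq hb hf h hl⟩

omit hb hf in
theorem old_lab (k : Lvo T M.π) : ∃ l : Lvo T (pN M.π s.b), l.1 = lj s.b k.1 ∧
    nlab S M s l = Sum.inl (Sum.inl (M.lab k)) :=
  ⟨⟨_, livo_lj.2 k.2⟩, rfl, nlab_lj k.2 _⟩

theorem lnk_lab (k : Lvo T M.π) (a : Lk S s.b) (e : a.1 = M.lab k) :
    ∃ l : Lvo T (pN M.π s.b), l.1 = lq s.b k.1 ∧ nlab S M s l = Sum.inr a := by
  have h1 : s.b ∈ lfo k.1 := hf k ▸ e ▸ a.2.1
  have h2 : lfo k.1 ≠ {s.b} := hf k ▸ e ▸ a.2.2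
  exact ⟨⟨_, (livo_lq hb h1).2 h2⟩, rfl,
    (nlab_lq hb hf h1 _).trans (congrArg _ (Subtype.ext e.symm))⟩

omit hb hf in
theorem glo_lj (z : (ι ⊕ s.X) ⊕ Lk S s.b → ℝ) (l : Lo T M.π) :
    glo (ne M s) (z ∘ nlab S M s) (nD M s o) (lj s.b l) = (if s.b ∈ lfo l then (s.d : ℝ) else 1) *
      glo M.e ((z ∘ Sum.inl ∘ Sum.inl) ∘ M.lab) M.D l := by
  by_cases h : Livo l
  · rw [glo, glo, dif_pos h, dif_pos (livo_lj.2 h), prod_ne, lfo_lj, lcl_lj, Function.comp,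
      nlab_lj h, mul_assoc]
    rfl
  · rw [glo, glo, dif_neg h, dif_neg (mt livo_lj.1 h), if_neg fun c => h ⟨_, c⟩, one_mul, nD,
      dif_neg (by rwa [lcl_lj]), lcl_lj]

omit hb in
theorem glo_out (z : (ι ⊕ s.X) ⊕ Lk S s.b → ℝ) {l : Lo T M.π} (h : s.b ∉ lfo l) :
    glo M.e (bv S s o z ∘ M.lab) M.D l = glo M.e ((z ∘ Sum.inl ∘ Sum.inl) ∘ M.lab) M.D l := by
  unfold glo
  split_ifs with k
  · rw [Function.comp, bv, dif_neg (by rwa [hf])]; rfl
  · rfl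

theorem glo_lq (z : (ι ⊕ s.X) ⊕ Lk S s.b → ℝ) (l : Lo T M.π) :
    glo (ne M s) (z ∘ nlab S M s) (nD M s o) (lq s.b l) = glo M.e (bv S s o z ∘ M.lab) M.D l := by
  by_cases h : s.b ∈ lfo l
  · have k : Livo l := ⟨_, h⟩
    have k1 : s.b ∈ S.fc (M.lab ⟨l, k⟩) := by rwa [hf]
    rw [glo, glo, dif_pos k, Function.comp_apply (f := bv S s o z), bv, dif_pos k1]
    by_cases c : Livo (lq s.b l)
    · rw [dif_pos c, dif_neg (by rw [hf]; exact (livo_lq hb h).1 c), prod_ne, lfo_lq hb,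
        if_neg (notMem_erase _ _), one_mul, lcl_lq, Function.comp, nlab_lq hb hf h]
    · rw [dif_neg c, dif_pos (by rw [hf]; exact not_not.1 (mt (livo_lq hb h).2 c)), nD,
        dif_pos (by rwa [lcl_lq])]
      simp only [lcl_lq]
      push_cast
      rfl
  · rw [lq_eq h, glo_lj, if_neg h, one_mul, glo_out hf z h]

omit hb in
theorem glo_mp (z : (ι ⊕ s.X) ⊕ Lk S s.b → ℝ) (l : Lo T M.π) :
    glo M.e (mp S s o z ∘ M.lab) M.D l = (if s.b ∈ lfo l then (s.d : ℝ) else 1) *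
      glo M.e ((z ∘ Sum.inl ∘ Sum.inl) ∘ M.lab) M.D l +
      if s.b ∈ lfo l then glo M.e (bv S s o z ∘ M.lab) M.D l else 0 := by
  split_ifs with h
  · have k : Livo l := ⟨_, h⟩
    simp only [glo, dif_pos k, Function.comp, mp, hf, if_pos h]
    ring
  · rw [one_mul, add_zero, ← glo_out (o := o) hf z h]
    unfold glo
    split_ifs with k
    · simp only [Function.comp, mp, hf, if_neg h, add_zero]
    · rfl

theorem rmo_step (z : (ι ⊕ s.X) ⊕ Lk S s.b → ℝ) : rmo (glo M.e (mp S s o z ∘ M.lab) M.D) =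
    rmo (glo (ne M s) (z ∘ nlab S M s) (nD M s o)) := by
  funext l
  have e : ∀ k : Lo T (pN M.π s.b), k.fc.image (omo (pN M.π s.b)) =
      (lcl k).fc.image (omo M.π) := fun k => by
    simp only [lcl, lift_fc, image_image, Function.comp_def, omo_vc]
  rw [rmo, rmo, sum_new hb]
  refine sum_congr rfl fun k _ => ?_
  simp only [e, lcl_lj, lcl_lq, glo_lj, glo_lq hb hf, glo_mp hf]
  have c1 : (lj s.b k).cd = k.cd := rfl
  have c2 : (lq s.b k).cd = k.cd := rfl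
  rw [c1, c2]
  split_ifs <;> simp

omit hb hf in
theorem jko_vj (x : Vo n p M.O) : jko (njo M s) (vj s.b x) = jko M.jo x := by
  rcases x with _ | w | u <;> rfl

omit hb hf in
theorem jko_vq (x : Vo n p M.O) : jko (njo M s) (vq s.b x) = jko M.jo x := by
  rcases x with _ | w | u
  · rfl
  · by_cases h : some w.1 = s.b <;> simp [vq, jko, njo, h]
  · rfl

omit hb hf in
theorem jp_step (h : ∀ o u, M.jo o = some u → M.π o = u) (o : M.O ⊕ Qv n p s.b) (u : Uv n p R)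
    (e : njo M s o = some u) : pN M.π s.b o = u := by
  rcases o with o | v
  exacts [h o u e, by cases e]

theorem inj_step (hi : M.lab.Injective) : (nlab S M s).Injective := fun l l' e => by
  rcases live_cases hb hf l with ⟨k, h1, h2⟩ | ⟨k, a, -, h1, h2, h3⟩ <;>
    rcases live_cases hb hf l' with ⟨k', h4, h5⟩ | ⟨k', a', -, h4, h5, h6⟩
  · rw [h2, h5] at e
    exact Subtype.ext (by rw [h1, h4, hi (Sum.inl_injective (Sum.inl_injective e))])
  · rw [h2, h6] at e; cases e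
  · rw [h3, h5] at e; cases e
  · rw [h3, h6] at e
    exact Subtype.ext (by rw [h1, h4, hi (h2.symm.trans (Sum.inr_injective e ▸ h5))])

theorem old_iff (P : Prop → Prop) (i : ι) :
    (∃ l, nlab S M s l = Sum.inl (Sum.inl i) ∧ P (none ∈ l.1.fc)) ↔
      ∃ k, M.lab k = i ∧ P (none ∈ k.1.fc) := by
  have e : ∀ k : Lo T M.π, (none ∈ (lj s.b k).fc) = (none ∈ k.fc) := fun k => by
    rw [← none_lfo, lfo_lj, none_lfo]
  refine ⟨fun ⟨l, h, c⟩ => ?_, fun ⟨k, h, c⟩ => ?_⟩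
  · rcases live_cases hb hf l with ⟨k, h1, h2⟩ | ⟨k, a, -, h1, h2, h3⟩
    · rw [h2] at h
      exact ⟨k, Sum.inl_injective (Sum.inl_injective h), by rwa [h1, e] at c⟩
    · rw [h3] at h; cases h
  · obtain ⟨l, h1, h2⟩ := old_lab (S := S) (s := s) k
    exact ⟨l, h ▸ h2, by rwa [h1, e]⟩

theorem lnk_iff (P : Prop → Prop) (a : Lk S s.b) :
    (∃ l, nlab S M s l = Sum.inr a ∧ P (none ∈ l.1.fc)) ↔
      ∃ k, M.lab k = a.1 ∧ P (none ∈ k.1.fc) := by
  have e : ∀ k : Lo T M.π, (none ∈ (lq s.b k).fc) = (none ∈ k.fc) := fun k => by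
    rw [← none_lfo, lfo_lq hb, mem_erase, and_iff_right hb.symm, none_lfo]
  refine ⟨fun ⟨l, h, c⟩ => ?_, fun ⟨k, h, c⟩ => ?_⟩
  · rcases live_cases hb hf l with ⟨k, h1, h2⟩ | ⟨k, a', -, h1, h2, h3⟩
    · rw [h2] at h; cases h
    · rw [h3] at h
      exact ⟨k, h2.symm.trans (congrArg _ (Sum.inr_injective h)), by rwa [h1, e] at c⟩
  · obtain ⟨l, h1, h2⟩ := lnk_lab hb hf k a h.symm
    exact ⟨l, h2, by rwa [h1, e]⟩

theorem new_ne (l : Lvo T (pN M.π s.b)) (x : s.X) : nlab S M s l ≠ Sum.inl (Sum.inr x) := by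
  rcases live_cases hb hf l with ⟨k, -, h⟩ | ⟨k, a, -, -, -, h⟩ <;> rw [h] <;> simp

theorem des_step : Des S s M.ex (stepM S M s o).ex := by
  refine ⟨fun i => ?_, fun x => ?_, fun a => ?_⟩ <;>
    simp only [Mdd.ex, mem_filter, mem_univ, true_and, Set.mem_range]
  · have := old_iff hb hf (fun _ => True) i
    simp only [and_true] at this
    exact not_congr this
  · exact fun ⟨l, h⟩ => new_ne hb hf l x h
  · have := lnk_iff hb hf (fun _ => True) a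
    simp only [and_true] at this
    exact not_congr this

theorem fc_step (l : Lvo T (pN M.π s.b)) : (rf S s o).fc (nlab S M s l) = lfo l.1 := by
  rcases live_cases hb hf l with ⟨k, h1, h2⟩ | ⟨k, a, -, h1, h2, h3⟩
  · rw [h2, h1, lfo_lj, ← hf]; rfl
  · rw [h3, h1, lfo_lq hb, ← hf, ← h2]; rfl

theorem lv_step (l : Lvo T (pN M.π s.b)) :
    ∃ k : Lvo T M.π, (rf S s o).lv (nlab S M s l) = S.lv (M.lab k) ∧ l.1.cd = k.1.cd := by
  rcases live_cases hb hf l with ⟨k, h1, h2⟩ | ⟨k, a, -, h1, h2, h3⟩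
  · exact ⟨k, by rw [h2]; rfl, by rw [h1]; rfl⟩
  · exact ⟨k, by rw [h3, ← h2]; rfl, by rw [h1]; rfl⟩

theorem G_step (hG : ∀ l l', S.G (M.lab l) (M.lab l') =
      (∏ u ∈ l.1.fc, M.g u) * Gam T (cVo M.π) Empty (n + 2) l.1 l'.1)
    (l l' : Lvo T (pN M.π s.b)) : (rf S s o).G (nlab S M s l) (nlab S M s l') =
      (∏ u ∈ l.1.fc, ng' M s u) * Gam T (cVo (pN M.π s.b)) Empty (n + 2) l.1 l'.1 := by
  rw [prod_ng]
  rcases live_cases hb hf l with ⟨k, h1, h2⟩ | ⟨k, a, c, h1, h2, h3⟩ <;>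
    rcases live_cases hb hf l' with ⟨k', h4, h5⟩ | ⟨k', a', c', h4, h5, h6⟩
  · rw [h2, h5, h1, h4, lfo_lj, lcl_lj, lj, lj, Gam_lift _ vj_inj Function.injective_id]
    change s.lam ^ (S.fc (M.lab k) ∩ {s.b}).card * S.G (M.lab k) (M.lab k') *
      s.lam ^ (S.fc (M.lab k') ∩ {s.b}).card = _
    rw [hG, hf, hf]
    by_cases e : Gam T (cVo M.π) Empty (n + 2) k.1 k'.1 = 0
    · simp [e]
    · rw [show lfo k'.1 = lfo k.1 by rw [lfo, lfo, (Gam_ne e).1]]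
      split_ifs with d
      · rw [inter_singleton_of_mem d, card_singleton]; ring
      · rw [inter_singleton_of_notMem d, card_empty]; ring
  · rw [h2, h6, h1, h4, show Gam T _ Empty (n + 2) (lj s.b k.1) (lq s.b k'.1) = 0 from
      if_neg fun e => lj_ne hb _ c' e.1, mul_zero]
    rfl
  · rw [h3, h5, h1, h4, show Gam T _ Empty (n + 2) (lq s.b k.1) (lj s.b k'.1) = 0 from
      if_neg fun e => lj_ne hb _ c e.1.symm, mul_zero]
    rfl
  · rw [h3, h6, h1, h4, lfo_lq hb, if_neg (notMem_erase _ _), one_mul, lcl_lq, lq, lq,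
      Gam_lift _ vq_inj Function.injective_id, ← hG, ← h2, ← h5]
    rfl

variable [Fintype R] [DecidableEq R] {Z : Sys T (Uv n p R) Unit} {s₀ : ℕ} {N : ℝ}

omit hb hf in
/-- the centres are homogeneous in the labels through a live class -/
theorem pr_scale (hT : T.Ok s₀ N) (hZ : Z.Ok) (b : Option (Fin n)) (d : ℝ) (y : Lo T M.π → ℝ)
    (l : Lo T M.π) : (pbo Z (jko M.jo) Empty).pr (cVo M.π) (n + 2)
      (fun k => (if b ∈ lfo k then d else 1) * y k) l =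
      (if b ∈ lfo l then d else 1) * (pbo Z (jko M.jo) Empty).pr (cVo M.π) (n + 2) y l := by
  have hP := ok_pbo hZ (jko M.jo) Empty
  split_ifs with h
  · obtain ⟨x, h1, h2⟩ := mem_lfo.1 h
    have h3 := (P057EN.lin_pr hP (bs_none l) h1
      (fun B => P057RA.at_insert Z (jko_of M.jo h2) _ B _)
      (r := univ.filter fun k : Lo T M.π => x ∈ k.fc) (by simp) y).map_smul d y
    simp only [mix_self, smul_eq_mul] at h3
    rw [← h3]
    refine pr_congr hT hP fun k k1 _ _ => ?_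
    by_cases a : x ∈ k.fc
    · rw [if_pos ((lfo_iff h1 h2 k1).2 a)]
      exact (mix_pos (d • y) y (by simpa using a)).symm
    · rw [if_neg (mt (lfo_iff h1 h2 k1).1 a), one_mul]
      exact (mix_neg (d • y) y (by simpa using a)).symm
  · rw [one_mul]
    exact pr_congr hT hP fun k k1 _ _ => by rw [if_neg fun c => h (lfo_mono k1 c), one_mul]

theorem cen_step (hT : T.Ok s₀ N) (hZ : Z.Ok) (hj : ∀ o u, M.jo o = some u → M.π o = u)
    (hc : ∀ z l, (∏ u ∈ l.1.fc, (M.e u : ℝ)) * S.p z (M.lab l) =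
      (pbo Z (jko M.jo) Empty).pr (cVo M.π) (n + 2) (glo M.e (z ∘ M.lab) M.D) l.1)
    (z : (ι ⊕ s.X) ⊕ Lk S s.b → ℝ) (l : Lvo T (pN M.π s.b)) :
    (∏ u ∈ l.1.fc, (ne M s u : ℝ)) * (rf S s o).p z (nlab S M s l) =
      (pbo Z (jko (njo M s)) Empty).pr (cVo (pN M.π s.b)) (n + 2)
        (glo (ne M s) (z ∘ nlab S M s) (nD M s o)) l.1 := by
  rw [prod_ne]
  rcases live_cases hb hf l with ⟨k, h1, h2⟩ | ⟨k, a, c, h1, h2, h3⟩
  · rw [h2, h1, lfo_lj, lcl_lj, lj, pr_pbo _ (cc_jko hj) (cc_jko (jp_step hj)) vj_inj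
      Function.injective_id jko_vj, mul_assoc]
    refine Eq.trans (congrArg _ (hc (z ∘ Sum.inl ∘ Sum.inl) k)) ?_
    rw [← pr_scale hT hZ]
    congr 1
    exact funext fun k => (glo_lj z k).symm
  · rw [h3, h1, lfo_lq hb, if_neg (notMem_erase _ _), one_mul, lcl_lq, lq,
      pr_pbo _ (cc_jko hj) (cc_jko (jp_step hj)) vq_inj Function.injective_id jko_vq]
    refine Eq.trans (congrArg _ ?_) ((hc (bv S s o z) k).trans ?_)
    · rw [← h2]; rfl
    · congr 1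
      exact funext fun k => (glo_lq hb hf z k).symm

end

end Vale.Agent.P057MD
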