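import Vale.Agent.P057MD.Root

/-!
New frozen vertices: the two embeddings of the old labels.
-/

set_option linter.all false

open Matrix Finset
open Vale.Agent.P267.H775 Vale.Agent.P057G Vale.Agent.P057PC Vale.Agent.P057TP Vale.Agent.P057MA
open Vale.Agent.P057GH Vale.Agent.P057SG Vale.Agent.P057FC

namespace Vale.Agent.P057MD

noncomputable section

open Classical

variable {T : Tow} {n p : ℕ} {R O : Type} {π : O → Uv n p R} {b : Option (Fin n)}

theorem mem_lfo {l : Lo T π} {v : Option (Fin n)} : v ∈ lfo l ↔ ∃ x ∈ l.fc, v ∈ lco x :=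
  mem_biUnion

theorem lfo_mono {l l' : Lo T π} (h : l'.fc ⊆ l.fc) : lfo l' ⊆ lfo l :=
  biUnion_subset_biUnion_of_subset_left _ h

theorem bs_none (l : Lo T π) : l.bs = none := by
  cases h : l.bs with
  | none => rfl
  | some e => exact e.elim

theorem cVo_of {x : Vo n p O} {v : Option (Fin n)} (h : v ∈ lco x) : cVo π x = v.map some := by
  rcases x with _ | w | u
  · rw [mem_singleton.1 h]; rfl
  · rw [mem_singleton.1 h]; rfl
  · exact absurd h (notMem_empty _)

theorem jko_of (jo : O → Option (Uv n p R)) {x : Vo n p O} {v : Option (Fin n)} (h : v ∈ lco x) :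
    jko jo x = none := by
  rcases x with _ | w | u
  · rfl
  · rfl
  · exact absurd h (notMem_empty _)

theorem lfo_iff {l k : Lo T π} {x : Vo n p O} {v : Option (Fin n)} (hx : x ∈ l.fc)
    (hv : v ∈ lco x) (hk : k.fc ⊆ l.fc) : v ∈ lfo k ↔ x ∈ k.fc := by
  refine ⟨fun h => ?_, fun h => mem_lfo.2 ⟨x, h, hv⟩⟩
  obtain ⟨y, h1, h2⟩ := mem_lfo.1 h
  have e : y = x := l.2.2.1 (hk h1) hx ((cVo_of h2).trans (cVo_of hv).symm)
  exact e ▸ h1

theorem prod_lco {β : Type} [CommMonoid β] (l : Lo T π) (b : Option (Fin n)) (c : β) :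
    ∏ u ∈ l.fc, (if b ∈ lco u then c else 1) = if b ∈ lfo l then c else 1 := by
  split_ifs with h
  · obtain ⟨x, h1, h2⟩ := mem_lfo.1 h
    rw [prod_eq_single_of_mem x h1, if_pos h2]
    exact fun y hy e => if_neg fun k => e (l.2.2.1 hy h1 ((cVo_of k).trans (cVo_of h2).symm))
  · exact prod_eq_one fun u hu => if_neg fun k => h (mem_lfo.2 ⟨u, hu, k⟩)

theorem cc_jko {jo : O → Option (Uv n p R)} (h : ∀ o u, jo o = some u → π o = u) :
    P057DP.Cc (jko jo) (cVo π) := by
  have k : ∀ v w, jko jo v = some w → cVo π v = some (cU w) := fun v w e => by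
    rcases v with _ | v | u
    · cases e
    · cases e
    · rw [← h u w e]; rfl
  exact fun v v' w h1 h2 => (k v w h1).trans (k v' w h2).symm

/-- the vertices of the class `b` -/
abbrev Qv (n p : ℕ) (b : Option (Fin n)) : Type := {v : Wv n p // some v.1 = b}

/-- the old vertex of a frozen vertex -/
def pN (π : O → Uv n p R) (b : Option (Fin n)) : O ⊕ Qv n p b → Uv n p R :=
  Sum.elim π fun v => Sum.inl v.1

/-- the inclusion -/
def vj (b : Option (Fin n)) : Vo n p O → Vo n p (O ⊕ Qv n p b) := Option.map (Sum.map id Sum.inl)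

/-- the live vertices of the class `b` are replaced by the new frozen vertices -/
def vq (b : Option (Fin n)) : Vo n p O → Vo n p (O ⊕ Qv n p b) :=
  Option.map (Sum.elim (fun v => if h : some v.1 = b then Sum.inr (Sum.inr ⟨v, h⟩) else Sum.inl v)
    fun o => Sum.inr (Sum.inl o))

/-- the collapse -/
def vc : Vo n p (O ⊕ Qv n p b) → Vo n p O :=
  Option.map (Sum.elim Sum.inl (Sum.elim Sum.inr fun v => Sum.inl v.1))

theorem vc_vj (x : Vo n p O) : vc (vj b x) = x := by rcases x with _ | w | u <;> rfl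

theorem vc_vq (x : Vo n p O) : vc (vq b x) = x := by
  rcases x with _ | w | u
  · rfl
  · by_cases h : some w.1 = b <;> simp [vq, vc, h]
  · rfl

theorem vj_inj : (vj b : Vo n p O → _).Injective := Function.LeftInverse.injective vc_vj

theorem vq_inj : (vq b : Vo n p O → _).Injective := Function.LeftInverse.injective vc_vq

theorem cVo_vc (x : Vo n p (O ⊕ Qv n p b)) : cVo π (vc x) = cVo (pN π b) x := by
  rcases x with _ | w | u | v <;> rfl

theorem omo_vc (x : Vo n p (O ⊕ Qv n p b)) : omo π (vc x) = omo (pN π b) x := by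
  rcases x with _ | w | u | v <;> rfl

theorem hcc (π : O → Uv n p R) (b : Option (Fin n)) (x y : Vo n p (O ⊕ Qv n p b)) :
    cVo π (vc x) = cVo π (vc y) ↔ cVo (pN π b) x = cVo (pN π b) y := by rw [cVo_vc, cVo_vc]

theorem hcj (π : O → Uv n p R) (b : Option (Fin n)) (x y : Vo n p O) :
    cVo (pN π b) (vj b x) = cVo (pN π b) (vj b y) ↔ cVo π x = cVo π y := by
  rw [← hcc, vc_vj, vc_vj]

theorem hcq (π : O → Uv n p R) (b : Option (Fin n)) (x y : Vo n p O) :
    cVo (pN π b) (vq b x) = cVo (pN π b) (vq b y) ↔ cVo π x = cVo π y := by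
  rw [← hcc, vc_vq, vc_vq]

theorem lco_vj (x : Vo n p O) : lco (vj b x) = lco x := by rcases x with _ | w | u <;> rfl

theorem lco_vq (hb : b ≠ none) (x : Vo n p O) : lco (vq b x) = (lco x).erase b := by
  rcases x with _ | w | u
  · exact (erase_eq_of_notMem fun h => hb (mem_singleton.1 h)).symm
  · by_cases h : some w.1 = b
    · simp [vq, lco, h]
    · simp [vq, lco, h, erase_eq_of_notMem, Ne.symm h]
  · rfl

theorem lco_vc (x : Vo n p (O ⊕ Qv n p b)) : lco x ⊆ lco (vc x) := by
  rcases x with _ | w | u | v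
  exacts [subset_rfl, subset_rfl, subset_rfl, empty_subset _]

theorem vq_eq {x : Vo n p O} (h : b ∉ lco x) : vq b x = vj b x := by
  rcases x with _ | w | u
  · rfl
  · have : ¬ some w.1 = b := fun e => h (mem_singleton.2 e.symm)
    simp [vq, vj, this]
  · rfl

theorem none_vj {x : Vo n p O} : vj b x = none ↔ x = none := Option.map_eq_none_iff

theorem none_vq {x : Vo n p O} : vq b x = none ↔ x = none := Option.map_eq_none_iff

variable [Fintype O] [DecidableEq O]

/-- the old label as a new label -/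
def lj (b : Option (Fin n)) (l : Lo T π) : Lo T (pN π b) := P057GH.lift (hcj π b) id l

/-- the link of an old label -/
def lq (b : Option (Fin n)) (l : Lo T π) : Lo T (pN π b) := P057GH.lift (hcq π b) id l

/-- the old label below a new label -/
def lcl (l : Lo T (pN π b)) : Lo T π := P057GH.lift (hcc π b) id l

/-- labels with a new vertex -/
def Nw (l : Lo T (pN π b)) : Prop := ∃ v, some (Sum.inr (Sum.inr v)) ∈ l.fc

theorem lo_ext {l l' : Lo T π} (h1 : l.cd = l'.cd)
    (h2 : l.fc = l'.fc) : l = l' := lb_ext h1 h2 ((bs_none l).trans (bs_none l').symm)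

theorem lcl_lj (l : Lo T π) : lcl (lj b l) = l := lo_ext rfl (by
  simp only [lcl, lj, lift_fc, image_image, Function.comp_def, vc_vj, image_id'])

theorem lcl_lq (l : Lo T π) : lcl (lq b l) = l := lo_ext rfl (by
  simp only [lcl, lq, lift_fc, image_image, Function.comp_def, vc_vq, image_id'])

theorem lfo_lj (l : Lo T π) : lfo (lj b l) = lfo l := by
  simp only [lfo, lj, lift_fc, image_biUnion, lco_vj]

theorem lfo_lq (hb : b ≠ none) (l : Lo T π) : lfo (lq b l) = (lfo l).erase b := by
  simp only [lfo, lq, lift_fc, image_biUnion, lco_vq hb, erase_biUnion]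

theorem lfo_lcl (l : Lo T (pN π b)) : lfo l ⊆ lfo (lcl l) := fun v hv => by
  obtain ⟨x, h1, h2⟩ := mem_lfo.1 hv
  exact mem_lfo.2 ⟨vc x, mem_image_of_mem _ h1, lco_vc x h2⟩

theorem livo_lcl {l : Lo T (pN π b)} (h : Livo l) : Livo (lcl l) := h.mono (lfo_lcl l)

theorem lq_eq {l : Lo T π} (h : b ∉ lfo l) : lq b l = lj b l :=
  lo_ext rfl (image_congr fun x hx => vq_eq fun k => h (mem_lfo.2 ⟨x, hx, k⟩))

theorem not_nw (l : Lo T π) : ¬ Nw (lj b l) := fun ⟨v, hv⟩ => by
  obtain ⟨x, -, h⟩ := mem_image.1 hv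
  rcases x with _ | w | u <;> simp [vj] at h

theorem nw_lq (hb : b ≠ none) {l : Lo T π} (h : b ∈ lfo l) : Nw (lq b l) := by
  obtain ⟨x, h1, h2⟩ := mem_lfo.1 h
  rcases x with _ | w | u
  · exact absurd (mem_singleton.1 h2) hb
  · have e := (mem_singleton.1 h2).symm
    exact ⟨⟨w, e⟩, mem_image.2 ⟨_, h1, by simp [vq, e]⟩⟩
  · exact absurd h2 (notMem_empty _)

theorem lj_ne (hb : b ≠ none) (k : Lo T π) {l : Lo T π} (h : b ∈ lfo l) :
    (lj b k).fc ≠ (lq b l).fc := fun e =>
  not_nw k ((nw_lq hb h).imp fun _ hv => e ▸ hv)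

/-- every new label is an old label or a link -/
theorem lab_cases (l : Lo T (pN π b)) : (∃ k, l = lj b k) ∨ ∃ k, b ∈ lfo k ∧ l = lq b k := by
  by_cases h : Nw l
  · obtain ⟨v, hv⟩ := h
    refine Or.inr ⟨lcl l, mem_lfo.2 ⟨_, mem_image_of_mem vc hv, mem_singleton.2 v.2.symm⟩,
      lo_ext rfl ?_⟩
    simp only [lcl, lq, lift_fc, image_image]
    refine (image_id.symm.trans (image_congr fun x hx => ?_))
    rcases x with _ | w | u | u
    · rfl
    · have : ¬ some w.1 = b := fun e => by
        have := l.2.2.1 hx hv (congrArg some (e.trans v.2.symm))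
        cases this
      simp [vq, vc, this]
    · rfl
    · simp [vq, vc, u.2]
  · refine Or.inl ⟨lcl l, lo_ext rfl ?_⟩
    simp only [lcl, lj, lift_fc, image_image]
    refine (image_id.symm.trans (image_congr fun x hx => ?_))
    rcases x with _ | w | u | u
    exacts [rfl, rfl, rfl, absurd ⟨u, hx⟩ h]

theorem prod_lcl {β : Type} [CommMonoid β] (l : Lo T (pN π b)) (f : Vo n p O → β) (c : β) :
    ∏ u ∈ l.fc, ((if b ∈ lco u then c else 1) * f (vc u)) =
      (if b ∈ lfo l then c else 1) * ∏ u ∈ (lcl l).fc, f u := by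
  rw [prod_mul_distrib, prod_lco, lcl, lift_fc,
    prod_image (s := l.fc) (injOn_of (hcc π b) l.2.2.1)]

/-- sums over the new labels -/
theorem sum_new (hb : b ≠ none) (F : Lo T (pN π b) → ℝ) :
    ∑ l, F l = ∑ k : Lo T π, (F (lj b k) + if b ∈ lfo k then F (lq b k) else 0) := by
  rw [← sum_fiberwise (s := univ) (g := lcl)]
  refine sum_congr rfl fun k _ => ?_
  have e : (univ.filter fun l : Lo T (pN π b) => lcl l = k) = {lj b k, lq b k} := by
    ext l
    simp only [mem_filter, mem_univ, true_and, mem_insert, mem_singleton]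
    refine ⟨fun h => ?_, fun h => h.elim (fun e => e ▸ lcl_lj k) fun e => e ▸ lcl_lq k⟩
    rcases lab_cases l with ⟨k', rfl⟩ | ⟨k', -, rfl⟩
    · exact Or.inl (by rw [← h, lcl_lj])
    · exact Or.inr (by rw [← h, lcl_lq])
  rw [e]
  split_ifs with h
  · exact sum_pair fun c => lj_ne hb k h (congrArg Lb.fc c)
  · rw [lq_eq h, pair_eq_singleton, sum_singleton, add_zero]

end

end Vale.Agent.P057MD
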